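import Vale.Agent.P022F.As.Defs2
import Vale.Agent.P022F.Gm.Defs
import Vale.Agent.P022F.Al.Defs

/-!
# P022F, block Tn: the good quotients are generated by two traces (statements)
-/

set_option linter.all false

open IsLocalRing NumberField

noncomputable section

namespace Vale.Agent.P022F.Tn

open Vale.Agent.P022 Vale.Agent.P022F.R Vale.Agent.P022F.As
open Vale.Agent.P022F.Core (Coef)
open Vale.Agent.P027M.S (mx)
open Vale.Agent.P022F.Loc (Pl)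

section
variable {O F : Type} [CommRing O] [IsLocalRing O] [Field F]

/-- the quotient has characteristic `ϖ` and its maximal ideal has square zero -/
def Sq (ϖ : O) (L : Pl O) (a : Ideal (Tg O)) : Prop :=
  cc ϖ ∈ a ∧ ∀ p ∈ mT L.r, ∀ q ∈ mT L.r, p * q ∈ a

/-- the coordinates -/
def xs (L : Pl O) (g : Fin 2 → GQ) (i : Fin 2) : Tg O := tt (g i) - cc (L.r (g i)).trace

/-- the pseudo character modulo `a` is the sum of two characters -/
def Sum2 (S : Dat O F) (L : Pl O) (a : Ideal (Tg O)) : Prop :=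
  ∃ χ : Fin 2 → GQ →* Tg O ⧸ a,
    (∀ g, Ideal.Quotient.mk a (tt g) = χ 0 g + χ 1 g) ∧
    (∀ g, Ideal.Quotient.mk a (dd g) = χ 0 g * χ 1 g) ∧
    (∀ i g, ∃ (c : O) (p : Tg O), S.red c = mx S.rb g i i ∧ p ∈ mT L.r ∧
      χ i g = Ideal.Quotient.mk a (cc c + p)) ∧
    ∀ u, (∀ g, tt (g * u) - tt g ∈ a) → ∀ i, χ i u = 1

end

/-- row GWC: the good ideals are stable under enlargement and finite intersection, the point
gives good ideals, the maximal ideal is nilpotent -/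
def GWC : Prop := ∀ (O F : Type) [CommRing O] [IsDomain O] [IsDiscreteValuationRing O] [Coef O]
  [Field F] [Finite F] [CharP F 2] (ϖ : O) (S : Dat O F) (L : Pl O), Irreducible ϖ → Fx S L →
  (∀ a a' : Ideal (Tg O), a ≤ a' → Gw ϖ L S.T ∅ 0 a → Gw ϖ L S.T ∅ 0 a') ∧
  (∀ a a' : Ideal (Tg O), Gw ϖ L S.T ∅ 0 a → Gw ϖ L S.T ∅ 0 a' → Gw ϖ L S.T ∅ 0 (a ⊓ a')) ∧
  Gw ϖ L S.T ∅ 0 ⊤ ∧ (∀ k, Gw ϖ L S.T ∅ 0 (pk ϖ L.r k)) ∧
  ∀ a : Ideal (Tg O), Gw ϖ L S.T ∅ 0 a → ∃ k : ℕ, mT L.r ^ k ≤ a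

/-- row TX: first order pseudo deformations are reducible -/
def TX : Prop := ∀ (O F : Type) [CommRing O] [IsDomain O] [IsDiscreteValuationRing O] [Coef O]
  [Field F] [Finite F] [CharP F 2] (ϖ : O) (S : Dat O F) (L : Pl O), Irreducible ϖ → Fx S L →
  ∀ a : Ideal (Tg O), a ≠ ⊤ → Gw ϖ L S.T ∅ 0 a → Sq ϖ L a → Sum2 S L a

/-- the tangent space has dimension at most two -/
def TAN : Prop := ∀ (O F : Type) [CommRing O] [IsDomain O] [IsDiscreteValuationRing O] [Coef O]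
  [Field F] [Finite F] [CharP F 2] (ϖ : O) (S : Dat O F) (L : Pl O), Irreducible ϖ → Fx S L →
  ∃ g : Fin 2 → GQ, ∀ a : Ideal (Tg O), Gw ϖ L S.T ∅ 0 a → Sq ϖ L a → ∀ p : Tg O,
    ∃ c0 c1 c2 : O, p - (cc c0 + cc c1 * xs L g 0 + cc c2 * xs L g 1) ∈ a

/-- row TC -/
def TC : Prop := Gm.Q8 → TX → TAN

/-- the good quotients are generated by the coordinates -/
def GEN : Prop := ∀ (O F : Type) [CommRing O] [IsDomain O] [IsDiscreteValuationRing O] [Coef O]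
  [Field F] [Finite F] [CharP F 2] (ϖ : O) (S : Dat O F) (L : Pl O), Irreducible ϖ → Fx S L →
  ∃ g : Fin 2 → GQ, ∀ a : Ideal (Tg O), Gw ϖ L S.T ∅ 0 a → ∀ p : Tg O,
    ∃ f : MvPolynomial (Fin 2) O, p - MvPolynomial.aeval (xs L g) f ∈ a

/-- row NAK -/
def NAK : Prop := GWC → TAN → GEN

/-- row GLUE -/
def GLUE : Prop := GWC → GEN → Al.ACT → Al.ACT2 → Al.SBT → Al.CPT → Al.KILL → Al.DIM → As.L2

end Vale.Agent.P022F.Tn
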