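import Vale.Agent.P022F.As.Defs2
import Vale.Agent.P022F.End1
import Vale.Agent.P022F.GenB

/-!
# P022F: block L2 in the unobstructed case
-/

set_option linter.all false

open IsLocalRing NumberField

noncomputable section

namespace Vale.Agent.P022F.Tn

open Vale.Agent.P022 Vale.Agent.P022F.R Vale.Agent.P022F.As
open Vale.Agent.P022F.Core (Coef)
open Vale.Agent.P027M.S (Inert mx)
open Vale.Agent.P022F.Loc (Pl)

section chars
variable {F : Type} [Field F] {ρ : GQ →* GL (Fin 2) F}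

theorem mxm (g h : GQ) : mx ρ (g * h) = mx ρ g * mx ρ h := congrArg Units.val (map_mul ρ g h)

theorem mx1 : mx ρ 1 = 1 := congrArg Units.val (map_one ρ)

/-- the diagonal characters -/
def dCh (lo : ∀ g, mx ρ g 1 0 = 0) (i : Fin 2) : GQ →* Fˣ :=
  MonoidHom.toHomUnits
    { toFun := fun g => mx ρ g i i
      map_one' := by rw [mx1, Matrix.one_apply_eq]
      map_mul' := fun g h => by
        rw [mxm, Matrix.mul_apply, Fin.sum_univ_two]
        fin_cases i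
        · exact (congrArg _ ((congrArg _ (lo h)).trans (mul_zero _))).trans (add_zero _)
        · exact (congrArg (· + _) ((congrArg (· * _) (lo g)).trans (zero_mul _))).trans
            (zero_add _) }

theorem dCh_val (lo : ∀ g, mx ρ g 1 0 = 0) (i : Fin 2) (g : GQ) :
    (dCh lo i g : F) = mx ρ g i i := rfl

theorem dCh_one (lo : ∀ g, mx ρ g 1 0 = 0) (i : Fin 2) {g : GQ} (h : mx ρ g = 1) :
    dCh lo i g = 1 := Units.ext (by rw [dCh_val, h, Matrix.one_apply_eq, Units.val_one])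

theorem lc_of {X : Type} (f : GQ → X) (U : Set GQ) (hU : IsOpen U) (h1 : (1 : GQ) ∈ U)
    (h : ∀ g, ∀ u ∈ U, f (g * u) = f g) : IsLocallyConstant f := by
  refine (IsLocallyConstant.iff_eventually_eq f).2 fun g => ?_
  have h2 : IsOpen ((fun x => g⁻¹ * x) ⁻¹' U) := hU.preimage (continuous_const.mul continuous_id)
  refine Filter.mem_of_superset (h2.mem_nhds (by simpa using h1)) fun x hx => ?_
  have := h g _ hx
  rwa [mul_inv_cancel_left] at this

theorem unob_of [CharP F 2] {χ ψ : GQ →* Fˣ} {T W : Finset ℕ} {c g0 : GQ} (hW : W ⊆ T)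
    (V : Set GQ) (hV : IsOpen V) (h1 : (1 : GQ) ∈ V) (hχ : ∀ g ∈ V, χ g = 1 ∧ ψ g = 1)
    (hu : ∀ l : ℕ, l.Prime → l ∉ T → ∀ s, P022D.G.Inert l s → χ s = 1 ∧ ψ s = 1)
    (hc : IsConj c) (hne : χ g0 ≠ ψ g0) (h : Sel.Ub (fun g => (χ g : F) / ψ g) T) :
    Gen.Unob W χ ψ := by
  intro b hb ⟨U, hU, hbU⟩ hun hbc
  have hψ : ∀ g, (ψ g : F) ≠ 0 := fun g => (ψ g).ne_zero
  have h0 : (χ g0 : F) - ψ g0 ≠ 0 := sub_ne_zero.2 fun e => hne (Units.ext e)
  obtain ⟨m, hm⟩ : ∃ m, m = b g0 / ((χ g0 : F) - ψ g0) := ⟨_, rfl⟩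
  have hcc : χ c = ψ c := by
    rw [Gen.sq1 (x := χ c) (by rw [← map_mul, H20.conj_sq hc, map_one]),
      Gen.sq1 (x := ψ c) (by rw [← map_mul, H20.conj_sq hc, map_one])]
  have key := h (fun g => (b g - m * ((χ g : F) - ψ g)) / ψ g)
    (lc_of _ ((U : Set GQ) ∩ V) (hU.inter hV) ⟨U.one_mem, h1⟩ fun g u hu => by
      rw [hb, hbU u hu.1, map_mul, map_mul, (hχ u hu.2).1, (hχ u hu.2).2]
      simp)
    (fun g k => by
      have := hψ g
      have := hψ k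
      rw [hb, map_mul, map_mul, Units.val_mul, Units.val_mul]
      field_simp
      ring)
    (fun l hl h2 hT s hs => by
      obtain ⟨e1, e2⟩ := hu l hl hT s hs
      obtain ⟨P, a1, a2, a3⟩ := hs
      rw [hun l hl h2 (fun hw => hT (hW hw)) P a1 a2 s a3, e1, e2]
      simp)
    ⟨c, hc, by rw [hbc c hc, hcc]; simp⟩ g0
    (fun e => h0 (by rw [div_eq_one_iff_eq (hψ g0)] at e; rw [e, sub_self]))
    (by rw [hm, div_mul_cancel₀ _ h0, sub_self, zero_div])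
  refine ⟨m, fun g => ?_⟩
  have := key g
  rwa [div_eq_zero_iff, or_iff_left (hψ g), sub_eq_zero] at this

end chars

section bridge
variable {O : Type} [CommRing O]

/-- the same data -/
def toE (L : Pl O) : P022E.Loc.Pl O :=
  ⟨L.H, L.Hl, L.cu, L.W, L.C, L.P, L.c, L.τ, L.φ, L.g0, L.r, L.a⟩

theorem gwE {ϖ : O} {L : Pl O} {T Q : Finset ℕ} {r : ℕ} {a : Ideal (Tg O)}
    (h : Gw ϖ L T Q r a) : P022E.As.Gw ϖ (toE L) T Q r a :=
  ⟨h.fin, h.nil0, h.nilt, h.nild, h.nily, h.t1, h.tc, h.tm, h.d1, h.dm, h.opn, h.unr, h.clt,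
    h.cld, h.yz⟩

theorem gmE {ϖ : O} {L : Pl O} {T Q : Finset ℕ} {r : ℕ} {Y : Type} [AddCommGroup Y]
    [Module (Tg O) Y] (h : Gm ϖ L T Q r Y) : P022E.As.Gm ϖ (toE L) T Q r Y := fun w => gwE (h w)

variable {F : Type} [IsLocalRing O] [Field F] {ϖ : O} {S : Dat O F} {L : Pl O} {I : Type}
  {Y0 : I → Type} {W0 : Type} [∀ i, AddCommGroup (Y0 i)] [∀ i, Module (Tg O) (Y0 i)]
  [AddCommGroup W0] [Module (Tg O) W0] {ses : I → I → I → Prop} {ig : I} {iJ : Finset L.C → I}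

theorem hdE (H : HD2 ϖ S L Y0 W0 ses ig iJ) :
    P022E.As.HD2 ϖ S (toE L) Y0 W0 ses ig iJ := by
  refine ⟨H.comb, fun i => gmE (H.gm0 i), gmE H.gmW, H.pi0, H.sb0, H.det0, H.big, fun r => ?_⟩
  obtain ⟨b, c, n₀, A, hl⟩ := H.lev r
  refine ⟨b, c, n₀, A, fun n q h1 h2 => ?_⟩
  obtain ⟨τ, φ, Yb, Wc, i1, i2, i3, i4, V⟩ := hl n q h1 h2
  exact ⟨τ, φ, Yb, Wc, i1, i2, i3, i4, V.hτ, V.hφ, fun i => gmE (V.gm i), gmE V.gmC, V.dia,
    V.diaC, V.ex, V.sb, V.pi, V.free, V.fib, V.red, V.piC, V.flat, V.cyc, V.unr, V.new, V.desc⟩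

theorem hyE [CharP F 2] (X : Fx S L) :
    Gen.Hy S.red (toE L) S.T (dCh X.ok.dh.tri 0) (dCh X.ok.dh.tri 1) := by
  have hL := X.ok
  have hW : L.W ⊆ S.T := fun l hl => by
    rw [hL.hT]
    exact Finset.mem_insert_of_mem (Finset.mem_insert_of_mem (Finset.mem_union_left _ hl))
  have hu : ∀ l : ℕ, l.Prime → l ∉ S.T → ∀ s, P022D.G.Inert l s → mx S.rb s = 1 := by
    intro l hl hT s ⟨P, a1, a2, a3⟩
    rw [← hL.lift, X.unr l hl hT P a1 a2 s a3, Matrix.map_one _ (map_zero _) (map_one _)]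
  have hV : ∀ g ∈ {g : GQ | S.rb g = 1}, mx S.rb g = 1 := fun g hg => congrArg Units.val hg
  have hne : dCh hL.dh.tri 0 S.g0 ≠ dCh hL.dh.tri 1 S.g0 := fun e => S.dne (congrArg Units.val e)
  refine ⟨S.surj, hL.ker, fun g => ?_, fun g => ?_, ⟨S.g0, hne⟩, fun l hl h => ?_,
    fun l hl => hL.hP l (Finset.mem_union_left _ hl), hL.h2, hL.cj, fun l hl => ?_,
    fun l hl e => ?_, ?_, ?_⟩
  · rw [dCh_val, dCh_val, ← Matrix.trace_fin_two, ← hL.lift g]
    exact AddMonoidHom.map_trace S.red (L.r g)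
  · rw [dCh_val, dCh_val, S.red.map_det, RingHom.mapMatrix_apply]
    change ((L.r g).map S.red).det = _
    rw [hL.lift g, Matrix.det_fin_two, hL.dh.tri, mul_zero, sub_zero]
  · rw [hL.hT, Finset.mem_insert, Finset.mem_insert, Finset.mem_union] at h
    rcases h with h | h | h | h
    exacts [absurd h hl.ne_zero, Or.inl h, Or.inr h, (hL.noC h).elim]
  · obtain ⟨a, b, c⟩ := hL.tm l (Finset.mem_union_left _ hl)
    exact ⟨a, b, c⟩
  · have e1 : mx S.rb (L.g0 l) 0 0 = mx S.rb (L.g0 l) 1 1 := congrArg Units.val e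
    have e2 : (L.rb S l (L.g0 l)).trace = (mx S.rb (L.g0 l)).trace := by
      rw [Loc.Pl.rb_apply, Matrix.trace_mul_cycle, ← Matrix.map_mul, Units.inv_mul,
        Matrix.map_one _ (map_zero _) (map_one _), one_mul]
    rw [Matrix.trace_fin_two, Matrix.trace_fin_two, e1, CharTwo.add_self_eq_zero] at e2
    exact (hL.reg l hl).2.2 (by
      linear_combination e2 - L.rb S l (L.g0 l) 1 1 * CharTwo.two_eq_zero (R := F))
  · exact unob_of hW _ hL.dh.opn (map_one S.rb)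
      (fun g hg => ⟨dCh_one _ _ (hV g hg), dCh_one _ _ (hV g hg)⟩)
      (fun l hl hT s hs => ⟨dCh_one _ _ (hu l hl hT s hs), dCh_one _ _ (hu l hl hT s hs)⟩)
      hL.cj hne X.ub1
  · exact unob_of hW _ hL.dh.opn (map_one S.rb)
      (fun g hg => ⟨dCh_one _ _ (hV g hg), dCh_one _ _ (hV g hg)⟩)
      (fun l hl hT s hs => ⟨dCh_one _ _ (hu l hl hT s hs), dCh_one _ _ (hu l hl hT s hs)⟩)
      hL.cj hne.symm X.ub2

end bridge

/-- **block L2** -/
theorem l2 : As.L2 := by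
  intro O F _ _ _ _ _ _ _ ϖ S L I Y0 W0 _ _ _ _ ses ig iJ hϖ X H
  exact End0.out2 (L := toE L) hϖ (fun _ hl => (X.ok.noC hl).elim) X.ok.cont X.unr
    (Gen.gen (hyE X) hϖ.maximalIdeal_eq) (hdE H)

end Vale.Agent.P022F.Tn
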